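import Vale.Agent.P141.H215.CapW
import Vale.Agent.P141.H297.StkX1
import Vale.Agent.P141.H389.RealAC
import Vale.Agent.P141.H677.FDb

/-!
# P141, line (A): operator caps of the stack on the shifted grids, both hubs, and the bundle `FD`

* `py_cap` : hub x1, `(1 - ν • Py (sl k m w) a n)` is positive for `ν c ≤ 1`; `st_ncap`, `xh_cap` :
  the stack `(r c ; R c)`, field `hcap` of `H297.Ch.stk_O`;
* `qw_cap`, `xw_cap` : hub x3, weight at most `θ`;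
* `fd_cd`, `fd_ncap`, `fd_shift` : the family `C` of `FDs`, root rectangles and shifted grids.
-/

namespace Vale.Agent.P141.H215

open Finset Matrix
open Vale.Agent.P141.PL (Pt iv ix mem_iv ix_ix)
open Vale.Agent.P141.PL.H315 (Tri)
open Vale.Agent.P075 (Ix val)
open Vale.Agent.P141.H103 (QW QW_symm)
open Vale.Agent.P141.H297.Ch (Py sl st XH Py_form Py_symm)
open Vale.Agent.P141.H389 (XW)
open Vale.Agent.P141.H677 (fC kF)
open Vale.Agent.P141.H677.Sk (FamA FamV FDs)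
open Vale.Agent.P141.H48 (sst)
open Vale.Agent.P141.H43 (av)

noncomputable section

open scoped Classical

/-! ### Hub x1 -/

section x1

variable {L : Type*} [Fintype L] [DecidableEq L] {c : ℝ} {a k : ℕ} {n m : ℤ}
  {w : ℤ → ℤ → L → ℝ}

omit [Fintype L] [DecidableEq L] in
/-- extension of a labelled vector to the integers -/
theorem ext_lab (k : ℕ) (m : ℤ) (v : Ix k × L → ℝ) :
    ∃ f : ℤ → L → ℝ, ∀ (j : Ix k) (l : L), f (2 ^ k * m + val k j) l = v (j, l) := by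
  have h := fun l => ext_val k m fun j => v (j, l)
  choose f hf using h
  exact ⟨fun y l => f l y, fun j l => hf l j⟩

/-- **Hub x1**: the Gram matrix with the label as an index. -/
theorem py_cap (h : NCap (c * (2 ^ a * 2 ^ k)) (iv a n) (iv k m) (nrm fun y x => w x y))
    (hc : 0 ≤ c) {ν : ℝ} (hν : 0 ≤ ν) (hνc : ν * c ≤ 1) :
    (1 - ν • Py (sl k m w) a n).PosSemidef := by
  refine PosSemidef.of_dotProduct_mulVec_nonneg ?_ fun v => ?_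
  · rw [IsHermitian, conjTranspose_eq_transpose_of_trivial, transpose_sub, transpose_one,
      transpose_smul, Py_symm]
  rw [star_trivial, sub_mulVec, one_mulVec, smul_mulVec, dotProduct_sub, dotProduct_smul, Py_form,
    smul_eq_mul]
  obtain ⟨f, hf⟩ := ext_lab k m v
  have e1 : ∀ y, v ⬝ᵥ sl k m w y = √((2 : ℝ) ^ k)⁻¹ * ∑ x ∈ iv k m, f x ⬝ᵥ w x y := by
    intro y
    rw [PL.H588.sum_iv k m fun x => f x ⬝ᵥ w x y, mul_sum, dotProduct, Fintype.sum_prod_type]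
    refine sum_congr rfl fun j _ => ?_
    rw [dotProduct, mul_sum]
    refine sum_congr rfl fun l _ => ?_
    unfold H297.Ch.sl
    rw [hf]
    ring
  have e2 : ∑ x ∈ iv k m, f x ⬝ᵥ f x = v ⬝ᵥ v := by
    rw [PL.H588.sum_iv k m fun x => f x ⬝ᵥ f x, dotProduct, Fintype.sum_prod_type]
    refine sum_congr rfl fun j _ => ?_
    rw [dotProduct]
    exact sum_congr rfl fun l _ => by rw [hf]
  have key := h.lab (by positivity : 0 ≤ c * (2 ^ a * 2 ^ k)) (b := fun y x => w x y)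
    (fun x _ y _ => (nrm_sq (fun y x => w x y) x y).ge) (fun _ _ _ _ => nrm_nonneg _ _ _) f
  rw [e2] at key
  have e3 : (av a n fun y => (v ⬝ᵥ sl k m w y) ^ 2) =
      ((2 : ℝ) ^ a)⁻¹ * (((2 : ℝ) ^ k)⁻¹ * ∑ y ∈ iv a n, (∑ x ∈ iv k m, f x ⬝ᵥ w x y) ^ 2) := by
    unfold Vale.Agent.P141.H43.av
    congr 1
    rw [mul_sum]
    refine sum_congr rfl fun y _ => ?_
    beta_reduce
    rw [e1, mul_pow, Real.sq_sqrt (by positivity)]
  have h4 : (av a n fun y => (v ⬝ᵥ sl k m w y) ^ 2) ≤ c * (v ⬝ᵥ v) := by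
    rw [e3, inv_mul_le_iff₀ (by positivity), inv_mul_le_iff₀ (by positivity)]
    refine key.trans (le_of_eq ?_)
    ring
  have h5 : 0 ≤ v ⬝ᵥ v := dot_nonneg _
  have h6 := mul_le_mul_of_nonneg_left h4 hν
  nlinarith

end x1

section stack

variable {ι : Type*} [Fintype ι] [DecidableEq ι] {c : ℝ} {X Y : Finset ℤ}

omit [DecidableEq ι] in
/-- **The stack `(r c ; R c)`**, in the order `(y, x)`. -/
theorem st_ncap {b : ℤ → ℤ → ι → ℝ} (h : NCap c X Y (nrm fun y x => b x y)) {r : ℝ} {j : ℕ}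
    {R : ℤ → ℤ → Matrix ι ι ℝ} {q : ℝ} (hq : 0 ≤ q)
    (hR : ∀ y ∈ X, ∀ x ∈ Y, ∀ w : ι → ℝ, (R x (ix j y) *ᵥ w) ⬝ᵥ (R x (ix j y) *ᵥ w) ≤ q * (w ⬝ᵥ w)) :
    NCap ((r ^ 2 + q) * c) X Y (nrm fun y x => st r j R b x y) := by
  have h0 : 0 ≤ r ^ 2 + q := by positivity
  have h1 := h.fam (C' := fun y x => st r j R b x y) (t := √(r ^ 2 + q)) (Real.sqrt_nonneg _)
    fun y hy x hx => ?_
  · rwa [Real.sq_sqrt h0] at h1
  · rw [Real.sq_sqrt h0]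
    have h2 := hR y hy x hx (b x y)
    have e : st r j R b x y ⬝ᵥ st r j R b x y =
        r ^ 2 * (b x y ⬝ᵥ b x y) + (R x (ix j y) *ᵥ b x y) ⬝ᵥ (R x (ix j y) *ᵥ b x y) := by
      unfold H297.Ch.st
      rw [dotProduct, Fintype.sum_sum_type]
      simp only [Sum.elim_inl, Sum.elim_inr, Pi.smul_apply, smul_eq_mul]
      congr 1
      rw [dotProduct, mul_sum]
      exact sum_congr rfl fun _ _ => by ring
    beta_reduce
    rw [e]
    linarith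

/-- **The cap of the stack at hub x1** (field `hcap` of `H297.Ch.stk_O`): `XH` of one outer cell. -/
theorem xh_cap {b : ℤ → ℤ → ι → ℝ} {r : ℝ} {R : ℕ → ℤ → ℤ → Matrix ι ι ℝ} {k a : ℕ} {n m : ℤ}
    (h : NCap (c * (2 ^ a * 2 ^ k)) (iv a n) (iv k m) (nrm fun y x => b x y)) (hc : 0 ≤ c) {q : ℝ}
    (hq : 0 ≤ q) (hR : ∀ y ∈ iv a n, ∀ x ∈ iv k m, ∀ w : ι → ℝ,
      (R (a + 1) x (ix (a + 1) y) *ᵥ w) ⬝ᵥ (R (a + 1) x (ix (a + 1) y) *ᵥ w) ≤ q * (w ⬝ᵥ w))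
    {ν : ℝ} (hν : 0 ≤ ν) (hνc : ν * ((r ^ 2 + q) * c) ≤ 1) :
    (1 - ν • XH r R b k a n m).PosSemidef := by
  have h1 := st_ncap (r := r) (j := a + 1) (R := R (a + 1)) h hq hR
  refine py_cap (c := (r ^ 2 + q) * c) ?_ (by positivity) hν hνc
  rwa [mul_assoc]

/-- **Hub x3**: the weighted Gram matrix, weight at most `θ`. -/
theorem qw_cap {b : ℤ → ℤ → ι → ℝ} {k a : ℕ} {n m : ℤ}
    (h : NCap (c * (2 ^ a * 2 ^ k)) (iv a n) (iv k m) (nrm b)) (hc : 0 ≤ c) {θ : ℝ} (hθ : 0 ≤ θ)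
    {M : ℤ → Matrix ι ι ℝ} (hM : ∀ x ∈ iv a n, (θ • (1 : Matrix ι ι ℝ) - M x).PosSemidef)
    {ν : ℝ} (hν : 0 ≤ ν) (hνc : ν * (θ * c) ≤ 1) :
    (1 - ν • QW a k b M n m).PosSemidef := by
  have h1 := (h.qw hc hθ hM).smul hν
  have h2 : ((1 - ν * (θ * c)) • (1 : Matrix (Ix k) (Ix k) ℝ)).PosSemidef :=
    PosSemidef.one.smul (by linarith)
  have e : (1 : Matrix (Ix k) (Ix k) ℝ) - ν • QW a k b M n m =
      ν • ((θ * c) • (1 : Matrix (Ix k) (Ix k) ℝ) - QW a k b M n m) +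
        (1 - ν * (θ * c)) • (1 : Matrix (Ix k) (Ix k) ℝ) := by
    rw [smul_sub, smul_smul, sub_smul, one_smul]
    abel
  rw [e]
  exact h1.add h2

/-- the same in the letters of `H389.XW` -/
theorem xw_cap {b : ℤ → ℤ → ι → ℝ} {W : ℤ → ℕ → ℤ → Matrix ι ι ℝ} {k a : ℕ} {n m : ℤ}
    (h : NCap (c * (2 ^ a * 2 ^ k)) (iv a n) (iv k m) (nrm b)) (hc : 0 ≤ c) {θ : ℝ} (hθ : 0 ≤ θ)
    (hW : ∀ x ∈ iv a n, (θ • (1 : Matrix ι ι ℝ) - W x k m).PosSemidef)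
    {ν : ℝ} (hν : 0 ≤ ν) (hνc : ν * (θ * c) ≤ 1) :
    (1 - ν • XW b W k a n m).PosSemidef := qw_cap h hc hθ hW hν hνc

end stack

/-! ### The bundle of the flow part -/

section FD

variable {ι : Type} [Fintype ι] [DecidableEq ι] {q : H401.Num} {n : ℕ} {ez : ℝ}
  {F1 F2 F3 : ℕ → Pt → ℝ} {K : ℕ} {x : Pt} {s r : ℝ} {U : Tri} {g : ℤ → ℤ → ℝ}
  {u v : ℤ → ℤ → ι → ℝ} {A : FamA} {b C : FamV ι} {Q1 Q2 Q3 : ℕ → Pt → Prop}
  {v' : ℤ → ℤ → ι → ℝ}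

omit [DecidableEq ι] in
/-- class data of `v'` from the ones of `v` -/
theorem cd_or {P : ℝ} (hC : H305.Cls K x s r P U g u v) {Λ cP : ℝ} (hΛ : 0 ≤ Λ) (hs : 0 ≤ s)
    (hez : 0 ≤ ez) (hKn : K ≤ n) (hB : H48.BSl n ez cP F2 Q2)
    (hv : ∀ x' z, v' x' z = v x' z ∨ v' x' z = 0) :
    CD Λ s ez cP n K F2 Q2 U.2.1 v' (fun k y z => sst Λ U.2.1 K k y z) (PL.cx K x).1
      (PL.cx K x).2.2 := by
  have h := cd_of_cls hC hΛ hs hez hKn hB
  refine ⟨h.Λ0, h.s0, h.ez0, h.hKn, h.bs, h.dd, h.dead, h.rng, fun y hy z hz => ?_, h.mass⟩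
  rcases hv y z with e | e
  · rw [e]
    exact h.maj y hy z hz
  · rw [e, zero_dotProduct]
    exact sq_nonneg _

/-- the data of the cap of `C` -/
theorem fd_cd (h : FDs q n ez F1 F2 F3 K x s r U g u v A b C Q1 Q2 Q3 v') {P : ℝ}
    (hC : H305.Cls K x s r P U g u v) (hΛ : 0 ≤ q.Lm) (hs : 0 ≤ s) (hez : 0 ≤ ez) (hKn : K ≤ n) :
    CD q.Lm s ez q.cP n K F2 Q2 U.2.1 v' (fun k y z => sst q.Lm U.2.1 K k y z) (PL.cx K x).1
      (PL.cx K x).2.2 := cd_or hC hΛ hs hez hKn h.B2 h.v_or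

theorem fd_C (h : FDs q n ez F1 F2 F3 K x s r U g u v A b C Q1 Q2 Q3 v') (x0 : ℤ) (k : ℕ) :
    C x0 k = fC v' (H576.kD (fun k y z => sst q.Lm U.2.1 K k y z) F2) x0 k := by
  funext z y
  rw [h.C_eq, H576.kD_sst]
  rfl

/-- **The cap of the slot `C` of the bundle**, rectangles of the root with sides of scale at least
the time `k`, order `(z, x)`. -/
theorem fd_ncap (h : FDs q n ez F1 F2 F3 K x s r U g u v A b C Q1 Q2 Q3 v') {P : ℝ}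
    (hC : H305.Cls K x s r P U g u v) (hΛ : 0 ≤ q.Lm) (hs : 0 ≤ s) (hez : 0 ≤ ez) (hKn : K ≤ n)
    {k i j : ℕ} (hki : k ≤ i) (hkj : k ≤ j) (hiK : i ≤ K) (hjK : j ≤ K) {m1 m3 : ℤ}
    (h1 : m1 ∈ iv (K - j) (PL.cx K x).1) (h3 : m3 ∈ iv (K - i) (PL.cx K x).2.2) (x0 : ℤ) :
    NCap (capV q.Lm s ez * (2 ^ i * 2 ^ j)) (iv i m3) (iv j m1) (nrm (C x0 k)) := by
  rw [fd_C h]
  exact ncap_fC (fd_cd h hC hΛ hs hez hKn) hki hkj hiK hjK h1 h3 x0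

/-- **The same on the shifted grids**, `H747.shC`, every cell. -/
theorem fd_shift (h : FDs q n ez F1 F2 F3 K x s r U g u v A b C Q1 Q2 Q3 v') {P : ℝ}
    (hC : H305.Cls K x s r P U g u v) (hΛ : 0 ≤ q.Lm) (hs : 0 ≤ s) (hez : 0 ≤ ez) (hKn : K ≤ n)
    {k i j : ℕ} (hki : k ≤ i) (hkj : k ≤ j) (hiK : i ≤ K) (hjK : j ≤ K) (x0 : ℤ) (sh : Pt)
    (p p' : ℤ) : NCap (4 * capV q.Lm s ez * (2 ^ i * 2 ^ j)) (iv i p) (iv j p')
      (nrm (H747.shC K (PL.cx K x) sh (C x0) k)) :=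
  ncap_sft (capV_nonneg hez) hiK hjK
    (fun _ hm3 _ hm1 => fd_ncap h hC hΛ hs hez hKn hki hkj hiK hjK hm1 hm3 x0) sh.2.2 sh.1 p p'

end FD

end

end Vale.Agent.P141.H215
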