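import Vale.Agent.P141.H618.CapC
import Vale.Agent.P141.H576.GapI
import Vale.Agent.P141.H205.SPath
import Vale.Agent.P141.H498.ColPr

/-!
# P141, line (A): the operator cap of the family of `v`, all squares, all uses

`NCap c X Y N` : the kernel `N` (a pointwise norm) has operator norm squared at most `c` on
`X × Y`, not normalised.  Only `0 ≤ U.2.1 ≤ 1`, the mass of `U.2.1` and the two line energies of the
input are used: no activity.

* `NCap.sub`, `NCap.union`, `NCap.le`, `NCap.smul` : restriction, block sums, comparison;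
* `NCap.sum_sq` : the Gram form of every family whose pointwise norm is at most `N`;
* `ncap_base` : the killed family of `v` at the time `k` on a square of scale `k`, dead or alive;
* `ncap_fC` : on every rectangle of the root with sides of scale at least `k`;
* `ncap_next` : at the time `k + 1` on a square of scale `k`;
* `capS_C`, `capS_C'` : letters of `H205.CapS`, both roles.
-/

namespace Vale.Agent.P141.H215

open Finset Matrix
open Vale.Agent.P141.PL (Pt iv ix mem_iv ix_ix)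
open Vale.Agent.P141.PL.H315 (A2 Tri)
open Vale.Agent.P141.H48 (BSl ES cst sst bg)
open Vale.Agent.P141.H677 (fC)
open Vale.Agent.P141.H576 (kD Dd)

noncomputable section

open scoped Classical

/-! ### Kernels -/

/-- the kernel `N` has operator norm squared at most `c` on `X × Y` -/
def NCap (c : ℝ) (X Y : Finset ℤ) (N : ℤ → ℤ → ℝ) : Prop :=
  ∀ a b : ℤ → ℝ, (∑ x ∈ X, ∑ y ∈ Y, a x * b y * N x y) ^ 2 ≤
    c * (∑ x ∈ X, a x ^ 2) * ∑ y ∈ Y, b y ^ 2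

section kernel

variable {c c' : ℝ} {X X' Y Y' : Finset ℤ} {N N' : ℤ → ℤ → ℝ}

theorem NCap.mono (h : NCap c X Y N) (hc : c ≤ c') : NCap c' X Y N := by
  intro a b
  have h1 : 0 ≤ ∑ x ∈ X, a x ^ 2 := sum_nonneg fun _ _ => sq_nonneg _
  have h2 : 0 ≤ ∑ y ∈ Y, b y ^ 2 := sum_nonneg fun _ _ => sq_nonneg _
  exact (h a b).trans (by gcongr)

theorem NCap.congr (h : NCap c X Y N) (e : ∀ x ∈ X, ∀ y ∈ Y, N x y = N' x y) :
    NCap c X Y N' := by
  intro a b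
  have h1 := h a b
  have e1 : ∑ x ∈ X, ∑ y ∈ Y, a x * b y * N x y = ∑ x ∈ X, ∑ y ∈ Y, a x * b y * N' x y :=
    sum_congr rfl fun x hx => sum_congr rfl fun y hy => by rw [e x hx y hy]
  rwa [e1] at h1

theorem ncap_zero (hc : 0 ≤ c) (e : ∀ x ∈ X, ∀ y ∈ Y, N x y = 0) : NCap c X Y N := by
  intro a b
  have e1 : ∑ x ∈ X, ∑ y ∈ Y, a x * b y * N x y = 0 :=
    sum_eq_zero fun x hx => sum_eq_zero fun y hy => by rw [e x hx y hy, mul_zero]
  have h1 : 0 ≤ ∑ x ∈ X, a x ^ 2 := sum_nonneg fun _ _ => sq_nonneg _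
  have h2 : 0 ≤ ∑ y ∈ Y, b y ^ 2 := sum_nonneg fun _ _ => sq_nonneg _
  have h3 : 0 ≤ c * (∑ x ∈ X, a x ^ 2) * ∑ y ∈ Y, b y ^ 2 := by positivity
  rw [e1]
  simpa using h3

/-- restriction -/
theorem NCap.sub (h : NCap c X Y N) (hX : X' ⊆ X) (hY : Y' ⊆ Y) : NCap c X' Y' N := by
  intro a b
  have h1 := h (fun x => if x ∈ X' then a x else 0) fun y => if y ∈ Y' then b y else 0
  have e1 : ∑ x ∈ X, (if x ∈ X' then a x else 0) ^ 2 = ∑ x ∈ X', a x ^ 2 := by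
    rw [← sum_subset hX fun x _ hx => by rw [if_neg hx]; norm_num]
    exact sum_congr rfl fun x hx => by rw [if_pos hx]
  have e2 : ∑ y ∈ Y, (if y ∈ Y' then b y else 0) ^ 2 = ∑ y ∈ Y', b y ^ 2 := by
    rw [← sum_subset hY fun x _ hx => by rw [if_neg hx]; norm_num]
    exact sum_congr rfl fun x hx => by rw [if_pos hx]
  have e3 : ∑ x ∈ X, ∑ y ∈ Y, (if x ∈ X' then a x else 0) * (if y ∈ Y' then b y else 0) * N x y =
      ∑ x ∈ X', ∑ y ∈ Y', a x * b y * N x y := by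
    rw [← sum_subset hX fun x _ hx => by simp [hx]]
    refine sum_congr rfl fun x hx => ?_
    rw [← sum_subset hY fun y _ hy => by simp [hy]]
    exact sum_congr rfl fun y hy => by rw [if_pos hx, if_pos hy]
  rwa [e1, e2, e3] at h1

/-- a smaller kernel -/
theorem NCap.le (h : NCap c X Y N') (h0 : ∀ x ∈ X, ∀ y ∈ Y, 0 ≤ N x y)
    (hN : ∀ x ∈ X, ∀ y ∈ Y, N x y ≤ N' x y) : NCap c X Y N := by
  intro a b
  have h1 := h (fun x => |a x|) fun y => |b y|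
  simp only [sq_abs] at h1
  refine le_trans ?_ h1
  rw [← sq_abs]
  refine pow_le_pow_left₀ (abs_nonneg _) ?_ 2
  refine (abs_sum_le_sum_abs _ _).trans (sum_le_sum fun x hx => ?_)
  refine (abs_sum_le_sum_abs _ _).trans (sum_le_sum fun y hy => ?_)
  rw [abs_mul, abs_mul, abs_of_nonneg (h0 x hx y hy)]
  exact mul_le_mul_of_nonneg_left (hN x hx y hy) (by positivity)

/-- a multiple -/
theorem NCap.smul (h : NCap c X Y N) (t : ℝ) : NCap (t ^ 2 * c) X Y fun x y => t * N x y := by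
  intro a b
  have h1 := h a b
  have e1 : ∑ x ∈ X, ∑ y ∈ Y, a x * b y * (t * N x y) =
      t * ∑ x ∈ X, ∑ y ∈ Y, a x * b y * N x y := by
    simp only [mul_sum]
    exact sum_congr rfl fun x _ => sum_congr rfl fun y _ => by ring
  rw [e1, mul_pow]
  calc t ^ 2 * (∑ x ∈ X, ∑ y ∈ Y, a x * b y * N x y) ^ 2 ≤
      t ^ 2 * (c * (∑ x ∈ X, a x ^ 2) * ∑ y ∈ Y, b y ^ 2) :=
        mul_le_mul_of_nonneg_left h1 (sq_nonneg t)
    _ = _ := by ring

/-- the other order -/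
theorem NCap.swap (h : NCap c X Y N) : NCap c Y X fun y x => N x y := by
  intro a b
  have h1 := h b a
  have e1 : ∑ x ∈ X, ∑ y ∈ Y, b x * a y * N x y = ∑ y ∈ Y, ∑ x ∈ X, a y * b x * N x y := by
    rw [sum_comm]
    exact sum_congr rfl fun y _ => sum_congr rfl fun x _ => by ring
  rw [e1] at h1
  refine h1.trans (le_of_eq ?_)
  ring

/-- **Block sums.** -/
theorem NCap.union {I J : Finset ℤ} {f g : ℤ → Finset ℤ}
    (hX : ∀ F : ℤ → ℝ, ∑ x ∈ X, F x = ∑ i ∈ I, ∑ x ∈ f i, F x)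
    (hY : ∀ F : ℤ → ℝ, ∑ y ∈ Y, F y = ∑ j ∈ J, ∑ y ∈ g j, F y)
    (h : ∀ i ∈ I, ∀ j ∈ J, NCap c (f i) (g j) N) :
    NCap ((I.card : ℝ) * J.card * c) X Y N := by
  intro a b
  have e1 : ∑ x ∈ X, ∑ y ∈ Y, a x * b y * N x y =
      ∑ p ∈ I ×ˢ J, ∑ x ∈ f p.1, ∑ y ∈ g p.2, a x * b y * N x y := by
    rw [hX, sum_product]
    refine sum_congr rfl fun i _ => ?_
    have e : ∑ x ∈ f i, ∑ y ∈ Y, a x * b y * N x y =
        ∑ x ∈ f i, ∑ j ∈ J, ∑ y ∈ g j, a x * b y * N x y := sum_congr rfl fun x _ => hY _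
    rw [e, sum_comm]
  have h1 := sq_sum_le_card_mul_sum_sq (s := I ×ˢ J)
    (f := fun p => ∑ x ∈ f p.1, ∑ y ∈ g p.2, a x * b y * N x y)
  rw [← e1, card_product] at h1
  refine h1.trans ?_
  have h2 : ∑ p ∈ I ×ˢ J, (∑ x ∈ f p.1, ∑ y ∈ g p.2, a x * b y * N x y) ^ 2 ≤
      c * (∑ x ∈ X, a x ^ 2) * ∑ y ∈ Y, b y ^ 2 := by
    have h3 : ∀ p ∈ I ×ˢ J, (∑ x ∈ f p.1, ∑ y ∈ g p.2, a x * b y * N x y) ^ 2 ≤
        c * (∑ x ∈ f p.1, a x ^ 2) * ∑ y ∈ g p.2, b y ^ 2 := fun p hp =>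
      h p.1 (mem_product.1 hp).1 p.2 (mem_product.1 hp).2 a b
    refine (sum_le_sum h3).trans (le_of_eq ?_)
    rw [sum_product, hX, hY, mul_assoc, sum_mul_sum, mul_sum]
    refine sum_congr rfl fun i _ => ?_
    rw [mul_sum]
    exact sum_congr rfl fun j _ => by ring
  have h4 : (0 : ℝ) ≤ (I.card : ℝ) * J.card := by positivity
  push_cast
  calc (I.card : ℝ) * J.card * ∑ p ∈ I ×ˢ J, (∑ x ∈ f p.1, ∑ y ∈ g p.2, a x * b y * N x y) ^ 2 ≤
      (I.card : ℝ) * J.card * (c * (∑ x ∈ X, a x ^ 2) * ∑ y ∈ Y, b y ^ 2) :=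
        mul_le_mul_of_nonneg_left h2 h4
    _ = _ := by ring

/-- **The Gram form of a family with pointwise norm at most `N`.** -/
theorem NCap.sum_sq {κ : Type*} [Fintype κ] (h : NCap c X Y N) (hc : 0 ≤ c)
    {b : ℤ → ℤ → κ → ℝ} (hb : ∀ x ∈ X, ∀ y ∈ Y, b x y ⬝ᵥ b x y ≤ N x y ^ 2)
    (h0 : ∀ x ∈ X, ∀ y ∈ Y, 0 ≤ N x y) (w : ℤ → ℝ) :
    ∑ x ∈ X, ∑ l, (∑ y ∈ Y, w y * b x y l) ^ 2 ≤ c * ∑ y ∈ Y, w y ^ 2 := by
  set G : ℤ → ℝ := fun x => ∑ y ∈ Y, |w y| * N x y with hG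
  have g0 : ∀ x ∈ X, 0 ≤ G x := fun x hx =>
    sum_nonneg fun y hy => mul_nonneg (abs_nonneg _) (h0 x hx y hy)
  have h1 : ∀ x ∈ X, ∑ l, (∑ y ∈ Y, w y * b x y l) ^ 2 ≤ G x ^ 2 := by
    intro x hx
    have e1 : ∑ l, (∑ y ∈ Y, w y * b x y l) ^ 2 =
        ∑ y ∈ Y, ∑ y' ∈ Y, w y * w y' * (b x y ⬝ᵥ b x y') := by
      have e2 : ∀ l, (∑ y ∈ Y, w y * b x y l) ^ 2 =
          ∑ y ∈ Y, ∑ y' ∈ Y, w y * w y' * (b x y l * b x y' l) := by
        intro l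
        rw [sq, sum_mul_sum]
        exact sum_congr rfl fun y _ => sum_congr rfl fun y' _ => by ring
      simp only [e2]
      rw [sum_comm]
      refine sum_congr rfl fun y _ => ?_
      rw [sum_comm]
      refine sum_congr rfl fun y' _ => ?_
      rw [dotProduct, mul_sum]
    rw [e1, hG]
    simp only
    rw [sq, sum_mul_sum]
    refine sum_le_sum fun y hy => sum_le_sum fun y' hy' => ?_
    have h2 : |b x y ⬝ᵥ b x y'| ≤ N x y * N x y' := by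
      have h3 := sum_mul_sq_le_sq_mul_sq univ (fun l => b x y l) fun l => b x y' l
      have h4 : (b x y ⬝ᵥ b x y') ^ 2 ≤ (N x y * N x y') ^ 2 := by
        have k1 : (b x y ⬝ᵥ b x y') ^ 2 ≤ (b x y ⬝ᵥ b x y) * (b x y' ⬝ᵥ b x y') := by
          unfold dotProduct
          simpa only [sq] using h3
        refine k1.trans ?_
        rw [mul_pow]
        exact mul_le_mul (hb x hx y hy) (hb x hx y' hy')
          (sum_nonneg fun l _ => mul_self_nonneg _) (sq_nonneg _)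
      exact abs_le_of_sq_le_sq h4 (mul_nonneg (h0 x hx y hy) (h0 x hx y' hy'))
    calc w y * w y' * (b x y ⬝ᵥ b x y') ≤ |w y * w y' * (b x y ⬝ᵥ b x y')| := le_abs_self _
      _ = |w y| * |w y'| * |b x y ⬝ᵥ b x y'| := by rw [abs_mul, abs_mul]
      _ ≤ |w y| * |w y'| * (N x y * N x y') := mul_le_mul_of_nonneg_left h2 (by positivity)
      _ = _ := by ring
  refine (sum_le_sum h1).trans ?_
  have h5 := h G fun y => |w y|
  simp only [sq_abs] at h5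
  have e5 : ∑ x ∈ X, ∑ y ∈ Y, G x * |w y| * N x y = ∑ x ∈ X, G x ^ 2 := by
    refine sum_congr rfl fun x _ => ?_
    rw [sq, hG]
    simp only
    rw [mul_sum]
    exact sum_congr rfl fun y _ => by ring
  rw [e5] at h5
  set T := ∑ x ∈ X, G x ^ 2 with hT
  have t0 : 0 ≤ T := sum_nonneg fun _ _ => sq_nonneg _
  rcases t0.eq_or_lt with h6 | h6
  · rw [← h6]
    have : 0 ≤ ∑ y ∈ Y, w y ^ 2 := sum_nonneg fun _ _ => sq_nonneg _
    positivity
  · have h7 : T * T ≤ T * (c * ∑ y ∈ Y, w y ^ 2) := by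
      calc T * T = T ^ 2 := (sq T).symm
        _ ≤ c * T * ∑ y ∈ Y, w y ^ 2 := h5
        _ = _ := by ring
    exact le_of_mul_le_mul_left h7 h6

end kernel

/-! ### The killed family of `v` -/

/-- data of the cap: `a` majorant of `v` on the root square `(M1, M3)` (cells of scale `K`), `D` the
dead squares of the input -/
structure CD {ι : Type*} [Fintype ι] (Λ s ez cP : ℝ) (n K : ℕ) (F : ℕ → Pt → ℝ)
    (Q : ℕ → Pt → Prop) (a : ℤ × ℤ → ℝ) (v : ℤ → ℤ → ι → ℝ) (D : ℕ → ℤ → ℤ → Prop)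
    (M1 M3 : ℤ) : Prop where
  Λ0 : 0 ≤ Λ
  s0 : 0 ≤ s
  ez0 : 0 ≤ ez
  hKn : K ≤ n
  bs : BSl n ez cP F Q
  dd : Dd D
  dead : ∀ k ≤ K, ∀ m1 ∈ iv (K - k) M1, ∀ m3 ∈ iv (K - k) M3,
    sst Λ a K k (2 ^ k * m1) (2 ^ k * m3) → D k (2 ^ k * m1) (2 ^ k * m3)
  rng : ∀ x ∈ iv K M1, ∀ z ∈ iv K M3, 0 ≤ a (x, z) ∧ a (x, z) ≤ 1
  maj : ∀ x ∈ iv K M1, ∀ z ∈ iv K M3, v x z ⬝ᵥ v x z ≤ a (x, z) ^ 2
  mass : ∀ x ∈ iv K M1, ∀ z ∈ iv K M3, A2 K a x z ≤ s

/-- the pointwise norm of a family -/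
def nrm {ι : Type*} [Fintype ι] (C : ℤ → ℤ → ι → ℝ) (z x : ℤ) : ℝ := √(C z x ⬝ᵥ C z x)

/-- the cap squared -/
def capV (Λ s ez : ℝ) : ℝ := 4 * (√(Λ * s) * ez)

theorem capV_nonneg {Λ s ez : ℝ} (hez : 0 ≤ ez) : 0 ≤ capV Λ s ez := by
  unfold capV
  have := Real.sqrt_nonneg (Λ * s)
  positivity

section nrm

variable {ι : Type*} [Fintype ι]

theorem nrm_nonneg (C : ℤ → ℤ → ι → ℝ) (z x : ℤ) : 0 ≤ nrm C z x := Real.sqrt_nonneg _

theorem dot_nonneg (w : ι → ℝ) : 0 ≤ w ⬝ᵥ w := sum_nonneg fun _ _ => mul_self_nonneg _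

theorem nrm_sq (C : ℤ → ℤ → ι → ℝ) (z x : ℤ) : nrm C z x ^ 2 = C z x ⬝ᵥ C z x :=
  Real.sq_sqrt (dot_nonneg _)

end nrm

/-- a cell of a root cell -/
theorem cell_sub {k K : ℕ} (hk : k ≤ K) {m M : ℤ} (hm : m ∈ iv (K - k) M) : iv k m ⊆ iv K M := by
  intro x hx
  rw [mem_iv] at hm hx ⊢
  rw [← hm, ← hx, ix_ix, Nat.add_sub_cancel' hk]

/-- the corner of a cell -/
theorem corner_iv (k : ℕ) (m : ℤ) : (2 : ℤ) ^ k * m ∈ iv k m := by
  rw [PL.iv, mem_Ico]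
  exact ⟨le_rfl, by nlinarith [pow_pos (by norm_num : (0 : ℤ) < 2) k]⟩

theorem ix_corner {k : ℕ} {m x : ℤ} (hx : x ∈ iv k m) : ix k x = ix k (2 ^ k * m) := by
  rw [mem_iv] at hx
  rw [hx, mem_iv.1 (corner_iv k m)]

section data

variable {ι : Type*} [Fintype ι] {Λ s ez cP : ℝ} {n K : ℕ} {F : ℕ → Pt → ℝ}
  {Q : ℕ → Pt → Prop} {a : ℤ × ℤ → ℝ} {v : ℤ → ℤ → ι → ℝ} {D : ℕ → ℤ → ℤ → Prop} {M1 M3 : ℤ}

/-- **The cap at its own scale**: every square of scale `k`, dead or alive, time `k`. -/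
theorem ncap_base (h : CD Λ s ez cP n K F Q a v D M1 M3) {k : ℕ} (hkK : k ≤ K) {m1 m3 : ℤ}
    (h1 : m1 ∈ iv (K - k) M1) (h3 : m3 ∈ iv (K - k) M3) (x0 : ℤ) :
    NCap (capV Λ s ez * (2 ^ k * 2 ^ k)) (iv k m3) (iv k m1) (nrm (fC v (kD D F) x0 k)) := by
  have hc0 : 0 ≤ capV Λ s ez * (2 ^ k * 2 ^ k) := mul_nonneg (capV_nonneg h.ez0) (by positivity)
  by_cases hz : k = 0 ∨ D k (2 ^ k * m1) (2 ^ k * m3)
  · refine ncap_zero hc0 fun z hz' x hx => ?_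
    have e : kD D F k (x0, x, z) = 0 := by
      unfold H576.kD
      rw [if_pos]
      rcases hz with hz | hz
      · exact Or.inl hz
      · exact Or.inr ((h.dd.congr k _ _ _ _ (ix_corner hx) (ix_corner hz')).2 hz)
    unfold nrm H677.fC
    rw [e, zero_smul, dotProduct_zero, Real.sqrt_zero]
  push Not at hz
  obtain ⟨hk0, hD⟩ := hz
  have hk1 : 1 ≤ k := by omega
  have hal : ¬ sst Λ a K k (2 ^ k * m1) (2 ^ k * m3) := fun hs => hD (h.dead k hkK m1 h1 m3 h3 hs)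
  have c1 := cell_sub hkK h1
  have c3 := cell_sub hkK h3
  have hm := H618.mass_alive hkK h.Λ0 hal
    (h.mass _ (c1 (corner_iv k m1)) _ (c3 (corner_iv k m3)))
  have hp : (4 : ℝ) ^ k = (2 ^ k) ^ 2 := by
    rw [← pow_mul, mul_comm k 2, pow_mul]
    norm_num
  have hm' : ∑ z ∈ iv k m3, ∑ x ∈ iv k m1, a (x, z) ^ 2 ≤ √(Λ * s) ^ 2 * (2 ^ k) ^ 2 := by
    rw [Real.sq_sqrt (mul_nonneg h.Λ0 h.s0), sum_comm, ← hp]
    exact hm
  have key := H618.prod_cap (X := iv k m3) (Y := iv k m1) (M := 2 ^ k) (q := √(Λ * s)) (e := ez)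
    (w := fun z x => a (x, z)) (Z := fun z x => F k (x0, x, z)) (by positivity)
    (Real.sqrt_nonneg _) (fun z hz x hx => (h.rng x (c1 hx) z (c3 hz)).1)
    (fun z hz x hx => (h.rng x (c1 hx) z (c3 hz)).2) hm'
    (fun z _ => H618.line1 h.bs hk1 (hkK.trans h.hKn) m1 x0 z)
    (fun x _ => H618.line2 h.bs hk1 (hkK.trans h.hKn) m3 x0 x)
  have hN : NCap (capV Λ s ez * (2 ^ k * 2 ^ k)) (iv k m3) (iv k m1)
      fun z x => a (x, z) * |F k (x0, x, z)| := by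
    intro f g
    refine (key f g).trans (le_of_eq ?_)
    unfold capV
    ring
  refine hN.le (fun z _ x _ => nrm_nonneg _ _ _) fun z hz x hx => ?_
  have r := h.rng x (c1 hx) z (c3 hz)
  have e1 : fC v (kD D F) x0 k z x ⬝ᵥ fC v (kD D F) x0 k z x ≤ (a (x, z) * |F k (x0, x, z)|) ^ 2 := by
    have e2 : kD D F k (x0, x, z) ^ 2 ≤ F k (x0, x, z) ^ 2 := by
      unfold H576.kD
      split_ifs
      · rw [zero_pow two_ne_zero]
        exact sq_nonneg _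
      · exact le_rfl
    unfold H677.fC
    rw [smul_dotProduct, dotProduct_smul, smul_eq_mul, smul_eq_mul, mul_pow, sq_abs, ← mul_assoc,
      ← sq, mul_comm (a (x, z) ^ 2)]
    exact mul_le_mul e2 (h.maj x (c1 hx) z (c3 hz)) (dot_nonneg _) (sq_nonneg _)
  unfold nrm
  rw [← Real.sqrt_sq (mul_nonneg r.1 (abs_nonneg (F k (x0, x, z))))]
  exact Real.sqrt_le_sqrt e1

/-- the number of subcells -/
theorem card_sub {k j : ℕ} (hkj : k ≤ j) (m : ℤ) :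
    ((iv (j - k) m).card : ℝ) * 2 ^ k = 2 ^ j := by
  rw [PL.card_iv]
  push_cast
  rw [← pow_add, Nat.sub_add_cancel hkj]

/-- **The cap on every rectangle of the root with sides of scale at least `k`**, time `k`. -/
theorem ncap_fC (h : CD Λ s ez cP n K F Q a v D M1 M3) {k i j : ℕ} (hki : k ≤ i) (hkj : k ≤ j)
    (hiK : i ≤ K) (hjK : j ≤ K) {m1 m3 : ℤ} (h1 : m1 ∈ iv (K - j) M1) (h3 : m3 ∈ iv (K - i) M3)
    (x0 : ℤ) :
    NCap (capV Λ s ez * (2 ^ i * 2 ^ j)) (iv i m3) (iv j m1) (nrm (fC v (kD D F) x0 k)) := by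
  have key := NCap.union (N := nrm (fC v (kD D F) x0 k)) (c := capV Λ s ez * (2 ^ k * 2 ^ k))
    (X := iv i m3) (Y := iv j m1) (I := iv (i - k) m3) (J := iv (j - k) m1) (f := iv k) (g := iv k)
    (fun G => (PL.H804.iv_sum hki m3 G).symm) (fun G => (PL.H804.iv_sum hkj m1 G).symm)
    fun p hp q hq => ncap_base h (hki.trans hiK) ?_ ?_ x0
  · refine key.mono (le_of_eq ?_)
    rw [← card_sub hki m3, ← card_sub hkj m1]
    ring
  · rw [mem_iv] at hq h1 ⊢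
    rw [← h1, ← hq, ix_ix]
    congr 1
    omega
  · rw [mem_iv] at hp h3 ⊢
    rw [← h3, ← hp, ix_ix]
    congr 1
    omega

/-- **The cap one scale below**: time `k + 1`, a square of scale `k`. -/
theorem ncap_next (h : CD Λ s ez cP n K F Q a v D M1 M3) {k : ℕ} (hk : k < K) {m1 m3 : ℤ}
    (h1 : m1 ∈ iv (K - k) M1) (h3 : m3 ∈ iv (K - k) M3) (x0 : ℤ) :
    NCap (4 * capV Λ s ez * (2 ^ k * 2 ^ k)) (iv k m3) (iv k m1)
      (nrm (fC v (kD D F) x0 (k + 1))) := by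
  have g : ∀ {m M : ℤ}, m ∈ iv (K - k) M → ix 1 m ∈ iv (K - (k + 1)) M := by
    intro m M hm
    rw [mem_iv] at hm ⊢
    rw [ix_ix, ← hm]
    congr 1
    omega
  have b := ncap_base h (k := k + 1) (by omega) (g h1) (g h3) x0
  have f : ∀ m : ℤ, iv k m ⊆ iv (k + 1) (ix 1 m) := by
    intro m x hx
    rw [mem_iv] at hx ⊢
    rw [← hx, ix_ix]
  refine (b.sub (f m3) (f m1)).mono (le_of_eq ?_)
  rw [pow_succ]
  ring

/-- the class data -/
theorem cd_of_cls {x : Pt} {r P : ℝ} {U : Tri} {g : ℤ → ℤ → ℝ} {u : ℤ → ℤ → ι → ℝ}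
    (hC : H305.Cls K x s r P U g u v) (hΛ : 0 ≤ Λ) (hs : 0 ≤ s) (hez : 0 ≤ ez) (hKn : K ≤ n)
    (hB : BSl n ez cP F Q) :
    CD Λ s ez cP n K F Q U.2.1 v (fun k y z => sst Λ U.2.1 K k y z) (PL.cx K x).1
      (PL.cx K x).2.2 := by
  have c1 : ∀ y ∈ iv K (PL.cx K x).1, y ∈ PL.H315.iv K x.1 := by
    intro y hy
    rw [PL.H317.iv_eq_iv]
    exact hy
  have c3 : ∀ z ∈ iv K (PL.cx K x).2.2, z ∈ PL.H315.iv K x.2.2 := by
    intro z hz
    rw [PL.H317.iv_eq_iv]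
    exact hz
  refine ⟨hΛ, hs, hez, hKn, hB, H576.Dd_sst Λ U.2.1 K, fun k _ m1 _ m3 _ hs => hs,
    fun y hy z hz => hC.U_v y (c1 y hy) z (c3 z hz),
    fun y hy z hz => hC.v_le y (c1 y hy) z (c3 z hz), fun y hy z hz => ?_⟩
  rw [H498.A2_root (c1 y hy) (c3 z hz)]
  exact hC.U_v2

end data

end

end Vale.Agent.P141.H215
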