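import Vale.Agent.P141.H215.CapC
import Vale.Agent.P141.H747.GridF

/-!
# P141, line (A): the cap of the family of `v`, letters of the users

* `NCap.fam` : families whose pointwise norm is at most `t` times another one (moved slot, stack);
* `NCap.capS` : `H205.CapS`; `NCap.qw` : `(θ c) • 1 - QW a k b M n m` is positive (field `cap` of
  `H505.Skel.Num`); `NCap.lab` : the Gram form with the label as an index;
* `ncap_shift` : the family on the shifted grids, cut to the root, factor `4`;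
* `capS_zx`, `capS_xz`, `qw_xz` : the killed family of `v` on the rectangles of the root.
-/

namespace Vale.Agent.P141.H215

open Finset Matrix
open Vale.Agent.P141.PL (Pt iv ix mem_iv ix_ix)
open Vale.Agent.P075 (Ix val)
open Vale.Agent.P141.H103 (QW QW_symm)
open Vale.Agent.P141.H205 (CapS)
open Vale.Agent.P141.H677 (fC)
open Vale.Agent.P141.H576 (kD Dd)
open Vale.Agent.P141.H747 (sft)

noncomputable section

open scoped Classical

section fam

variable {κ κ' : Type*} [Fintype κ] [Fintype κ'] {c : ℝ} {X Y : Finset ℤ}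

/-- **A family whose pointwise norm is at most `t` times another one.** -/
theorem NCap.fam {C : ℤ → ℤ → κ → ℝ} {C' : ℤ → ℤ → κ' → ℝ} {t : ℝ} (h : NCap c X Y (nrm C))
    (ht : 0 ≤ t) (hC : ∀ z ∈ X, ∀ x ∈ Y, C' z x ⬝ᵥ C' z x ≤ t ^ 2 * (C z x ⬝ᵥ C z x)) :
    NCap (t ^ 2 * c) X Y (nrm C') := by
  refine (h.smul t).le (fun z _ x _ => nrm_nonneg _ _ _) fun z hz x hx => ?_
  have h1 := hC z hz x hx
  rw [← nrm_sq C, ← mul_pow] at h1
  unfold nrm
  calc √(C' z x ⬝ᵥ C' z x) ≤ √((t * nrm C z x) ^ 2) := Real.sqrt_le_sqrt h1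
    _ = t * √(C z x ⬝ᵥ C z x) := Real.sqrt_sq (mul_nonneg ht (nrm_nonneg _ _ _))

/-- the family in the other order -/
theorem NCap.flip {C : ℤ → ℤ → κ → ℝ} (h : NCap c X Y (nrm C)) :
    NCap c Y X (nrm fun x z => C z x) := h.swap

/-- **Letters of `H205.CapS`.** -/
theorem NCap.capS {a k : ℕ} {n m : ℤ} {b : ℤ → ℤ → κ → ℝ} (hc : 0 ≤ c)
    (h : NCap (c * (2 ^ a * 2 ^ k)) (iv a n) (iv k m) (nrm b)) : CapS c a k b n m := fun w =>
  h.sum_sq (by positivity) (fun x _ y _ => (nrm_sq b x y).ge) (fun _ _ _ _ => nrm_nonneg _ _ _) w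

variable [DecidableEq κ]

/-- extension of a vector to the integers -/
theorem ext_val (k : ℕ) (m : ℤ) (w : Ix k → ℝ) :
    ∃ f : ℤ → ℝ, ∀ j : Ix k, f (2 ^ k * m + val k j) = w j := by
  refine ⟨fun y => if hy : ∃ j : Ix k, y = 2 ^ k * m + val k j then w hy.choose else 0, ?_⟩
  intro j
  have hy : ∃ j' : Ix k, (2 : ℤ) ^ k * m + val k j = 2 ^ k * m + val k j' := ⟨j, rfl⟩
  simp only
  rw [dif_pos hy]
  congr 1
  have h1 := hy.choose_spec
  have h2 : (val k j : ℤ) = val k hy.choose := by linarith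
  exact (PL.H804.val_inj k (by exact_mod_cast h2)).symm

/-- the unweighted Gram matrix -/
theorem NCap.qw_one {a k : ℕ} {n m : ℤ} {b : ℤ → ℤ → κ → ℝ} (hc : 0 ≤ c)
    (h : NCap (c * (2 ^ a * 2 ^ k)) (iv a n) (iv k m) (nrm b)) :
    (c • (1 : Matrix (Ix k) (Ix k) ℝ) - QW a k b (fun _ => 1) n m).PosSemidef := by
  refine PosSemidef.of_dotProduct_mulVec_nonneg ?_ fun w => ?_
  · rw [Matrix.IsHermitian, conjTranspose_eq_transpose_of_trivial, transpose_sub, transpose_smul,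
      transpose_one, QW_symm fun _ => transpose_one]
  rw [star_trivial, sub_mulVec, dotProduct_sub, smul_mulVec, one_mulVec, dotProduct_smul,
    smul_eq_mul, sub_nonneg]
  obtain ⟨f, hfw⟩ := ext_val k m w
  have h1 := h.capS hc f
  have e1 : ∑ y ∈ iv k m, f y ^ 2 = w ⬝ᵥ w := by
    rw [PL.H588.sum_iv, dotProduct]
    exact sum_congr rfl fun j _ => by rw [hfw, sq]
  have e2 : ∀ x, ∑ l, (∑ y ∈ iv k m, f y * b x y l) ^ 2 =
      ∑ j : Ix k, ∑ j' : Ix k, w j * w j' * (b x (2 ^ k * m + val k j) ⬝ᵥ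
        b x (2 ^ k * m + val k j')) := by
    intro x
    have e4 : ∀ l, (∑ y ∈ iv k m, f y * b x y l) ^ 2 =
        ∑ j : Ix k, ∑ j' : Ix k, w j * w j' *
          (b x (2 ^ k * m + val k j) l * b x (2 ^ k * m + val k j') l) := by
      intro l
      rw [PL.H588.sum_iv, sq, Finset.sum_mul_sum]
      exact sum_congr rfl fun j _ => sum_congr rfl fun j' _ => by rw [hfw, hfw]; ring
    simp only [e4]
    rw [sum_comm]
    refine sum_congr rfl fun j _ => ?_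
    rw [sum_comm]
    refine sum_congr rfl fun j' _ => ?_
    rw [dotProduct, mul_sum]
  have e3 : w ⬝ᵥ QW a k b (fun _ => 1) n m *ᵥ w = ((2 : ℝ) ^ a * 2 ^ k)⁻¹ *
      ∑ x ∈ iv a n, ∑ l, (∑ y ∈ iv k m, f y * b x y l) ^ 2 := by
    have e5 : w ⬝ᵥ QW a k b (fun _ => 1) n m *ᵥ w = ∑ j : Ix k, w j *
        ∑ j' : Ix k, QW a k b (fun _ => 1) n m j j' * w j' := rfl
    rw [e5]
    simp only [e2]
    rw [sum_comm, mul_sum]
    refine sum_congr rfl fun j _ => ?_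
    rw [sum_comm, mul_sum, mul_sum]
    refine sum_congr rfl fun j' _ => ?_
    rw [← mul_sum, QW]
    simp only [one_mulVec]
    ring
  rw [e3, ← e1, inv_mul_le_iff₀ (by positivity)]
  refine h1.trans (le_of_eq ?_)
  ring

/-- **The weighted Gram matrix** (field `cap` of `H505.Skel.Num`). -/
theorem NCap.qw {a k : ℕ} {n m : ℤ} {b : ℤ → ℤ → κ → ℝ} {θ : ℝ} (hc : 0 ≤ c) (hθ : 0 ≤ θ)
    (h : NCap (c * (2 ^ a * 2 ^ k)) (iv a n) (iv k m) (nrm b)) {M : ℤ → Matrix κ κ ℝ}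
    (hM : ∀ x ∈ iv a n, (θ • (1 : Matrix κ κ ℝ) - M x).PosSemidef) :
    ((θ * c) • (1 : Matrix (Ix k) (Ix k) ℝ) - QW a k b M n m).PosSemidef := by
  have h1 := (h.qw_one hc).smul hθ
  have h2 : (QW a k b (fun x => if x ∈ iv a n then θ • (1 : Matrix κ κ ℝ) - M x else 0) n
      m).PosSemidef := by
    refine H103.QW_psd (fun x => ?_) n m
    split_ifs with hx
    · exact hM x hx
    · exact PosSemidef.zero
  have e : (θ * c) • (1 : Matrix (Ix k) (Ix k) ℝ) - QW a k b M n m =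
      θ • (c • (1 : Matrix (Ix k) (Ix k) ℝ) - QW a k b (fun _ => 1) n m) +
        QW a k b (fun x => if x ∈ iv a n then θ • (1 : Matrix κ κ ℝ) - M x else 0) n m := by
    ext j j'
    simp only [Matrix.sub_apply, Matrix.add_apply, Matrix.smul_apply, smul_eq_mul, QW]
    have e1 : ∑ x ∈ iv a n, b x (2 ^ k * m + val k j) ⬝ᵥ
        (if x ∈ iv a n then θ • (1 : Matrix κ κ ℝ) - M x else 0) *ᵥ b x (2 ^ k * m + val k j') =
        θ * ∑ x ∈ iv a n, b x (2 ^ k * m + val k j) ⬝ᵥ (1 : Matrix κ κ ℝ) *ᵥ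
          b x (2 ^ k * m + val k j') -
        ∑ x ∈ iv a n, b x (2 ^ k * m + val k j) ⬝ᵥ M x *ᵥ b x (2 ^ k * m + val k j') := by
      rw [mul_sum, ← sum_sub_distrib]
      refine sum_congr rfl fun x hx => ?_
      rw [if_pos hx, sub_mulVec, dotProduct_sub, smul_mulVec, dotProduct_smul, smul_eq_mul]
    rw [e1]
    ring
  rw [e]
  exact h1.add h2

omit [DecidableEq κ] in
/-- **The Gram form with the label as an index** : outer variable `X`, index `(y, l)`. -/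
theorem NCap.lab {N : ℤ → ℤ → ℝ} (h : NCap c X Y N) (hc : 0 ≤ c) {b : ℤ → ℤ → κ → ℝ}
    (hb : ∀ x ∈ X, ∀ y ∈ Y, b x y ⬝ᵥ b x y ≤ N x y ^ 2)
    (h0 : ∀ x ∈ X, ∀ y ∈ Y, 0 ≤ N x y) (w : ℤ → κ → ℝ) :
    ∑ x ∈ X, (∑ y ∈ Y, w y ⬝ᵥ b x y) ^ 2 ≤ c * ∑ y ∈ Y, w y ⬝ᵥ w y := by
  set G : ℤ → ℝ := fun x => ∑ y ∈ Y, √(w y ⬝ᵥ w y) * N x y with hG
  have h1 : ∀ x ∈ X, (∑ y ∈ Y, w y ⬝ᵥ b x y) ^ 2 ≤ G x ^ 2 := by
    intro x hx
    rw [← sq_abs (∑ y ∈ Y, w y ⬝ᵥ b x y)]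
    refine pow_le_pow_left₀ (abs_nonneg _) ?_ 2
    refine (abs_sum_le_sum_abs _ _).trans (sum_le_sum fun y hy => ?_)
    have h3 := sum_mul_sq_le_sq_mul_sq univ (fun l => w y l) fun l => b x y l
    have h4 : (w y ⬝ᵥ b x y) ^ 2 ≤ (√(w y ⬝ᵥ w y) * N x y) ^ 2 := by
      have k1 : (w y ⬝ᵥ b x y) ^ 2 ≤ (w y ⬝ᵥ w y) * (b x y ⬝ᵥ b x y) := by
        unfold dotProduct
        simpa only [sq] using h3
      refine k1.trans ?_
      rw [mul_pow, Real.sq_sqrt (dot_nonneg _)]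
      exact mul_le_mul_of_nonneg_left (hb x hx y hy) (dot_nonneg _)
    exact abs_le_of_sq_le_sq h4 (mul_nonneg (Real.sqrt_nonneg _) (h0 x hx y hy))
  refine (sum_le_sum h1).trans ?_
  have h5 := h G fun y => √(w y ⬝ᵥ w y)
  simp only [Real.sq_sqrt (dot_nonneg (w _))] at h5
  have e5 : ∑ x ∈ X, ∑ y ∈ Y, G x * √(w y ⬝ᵥ w y) * N x y = ∑ x ∈ X, G x ^ 2 := by
    refine sum_congr rfl fun x _ => ?_
    rw [sq, hG]
    simp only
    rw [mul_sum]
    exact sum_congr rfl fun y _ => by ring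
  rw [e5] at h5
  set T := ∑ x ∈ X, G x ^ 2 with hT
  have t0 : 0 ≤ T := sum_nonneg fun _ _ => sq_nonneg _
  have w0 : 0 ≤ ∑ y ∈ Y, w y ⬝ᵥ w y := sum_nonneg fun _ _ => dot_nonneg _
  rcases t0.eq_or_lt with h6 | h6
  · rw [← h6]
    positivity
  · have h7 : T * T ≤ T * (c * ∑ y ∈ Y, w y ⬝ᵥ w y) := by
      calc T * T = T ^ 2 := (sq T).symm
        _ ≤ c * T * ∑ y ∈ Y, w y ⬝ᵥ w y := h5
        _ = _ := by ring
    exact le_of_mul_le_mul_left h7 h6

end fam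

/-! ### The killed family of `v` -/

section data

variable {ι : Type*} [Fintype ι] {Λ s ez cP : ℝ} {n K : ℕ} {F : ℕ → Pt → ℝ}
  {Q : ℕ → Pt → Prop} {a : ℤ × ℤ → ℝ} {v : ℤ → ℤ → ι → ℝ} {D : ℕ → ℤ → ℤ → Prop} {M1 M3 : ℤ}

/-- outer `x3`, middle `x1` -/
theorem capS_zx (h : CD Λ s ez cP n K F Q a v D M1 M3) {k i j : ℕ} (hki : k ≤ i) (hkj : k ≤ j)
    (hiK : i ≤ K) (hjK : j ≤ K) {m1 m3 : ℤ} (h1 : m1 ∈ iv (K - j) M1) (h3 : m3 ∈ iv (K - i) M3)
    (x0 : ℤ) : CapS (capV Λ s ez) i j (fC v (kD D F) x0 k) m3 m1 :=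
  (ncap_fC h hki hkj hiK hjK h1 h3 x0).capS (capV_nonneg h.ez0)

/-- outer `x1`, middle `x3` -/
theorem capS_xz (h : CD Λ s ez cP n K F Q a v D M1 M3) {k i j : ℕ} (hki : k ≤ i) (hkj : k ≤ j)
    (hiK : i ≤ K) (hjK : j ≤ K) {m1 m3 : ℤ} (h1 : m1 ∈ iv (K - i) M1) (h3 : m3 ∈ iv (K - j) M3)
    (x0 : ℤ) : CapS (capV Λ s ez) i j (fun x z => fC v (kD D F) x0 k z x) m1 m3 := by
  refine NCap.capS (capV_nonneg h.ez0) ?_
  rw [mul_comm ((2 : ℝ) ^ i)]
  exact (ncap_fC h hkj hki hjK hiK h1 h3 x0).flip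

variable [DecidableEq ι]

/-- **The cap of the weighted stack**, outer `x1` (scale `i`), middle `x3` (scale `j`): field `cap`
of `H505.Skel.Num`. -/
theorem qw_xz (h : CD Λ s ez cP n K F Q a v D M1 M3) {k i j : ℕ} (hki : k ≤ i) (hkj : k ≤ j)
    (hiK : i ≤ K) (hjK : j ≤ K) {m1 m3 : ℤ} (h1 : m1 ∈ iv (K - i) M1) (h3 : m3 ∈ iv (K - j) M3)
    (x0 : ℤ) {θ : ℝ} (hθ : 0 ≤ θ) {M : ℤ → Matrix ι ι ℝ}
    (hM : ∀ x ∈ iv i m1, (θ • (1 : Matrix ι ι ℝ) - M x).PosSemidef) :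
    ((θ * capV Λ s ez) • (1 : Matrix (Ix j) (Ix j) ℝ) -
      QW i j (fun x z => fC v (kD D F) x0 k z x) M m1 m3).PosSemidef := by
  refine NCap.qw (capV_nonneg h.ez0) hθ ?_ hM
  rw [mul_comm ((2 : ℝ) ^ i)]
  exact (ncap_fC h hkj hki hjK hiK h1 h3 x0).flip

/-- the same, outer `x3`, middle `x1` -/
theorem qw_zx (h : CD Λ s ez cP n K F Q a v D M1 M3) {k i j : ℕ} (hki : k ≤ i) (hkj : k ≤ j)
    (hiK : i ≤ K) (hjK : j ≤ K) {m1 m3 : ℤ} (h1 : m1 ∈ iv (K - j) M1) (h3 : m3 ∈ iv (K - i) M3)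
    (x0 : ℤ) {θ : ℝ} (hθ : 0 ≤ θ) {M : ℤ → Matrix ι ι ℝ}
    (hM : ∀ z ∈ iv i m3, (θ • (1 : Matrix ι ι ℝ) - M z).PosSemidef) :
    ((θ * capV Λ s ez) • (1 : Matrix (Ix j) (Ix j) ℝ) -
      QW i j (fC v (kD D F) x0 k) M m3 m1).PosSemidef :=
  NCap.qw (capV_nonneg h.ez0) hθ (ncap_fC h hki hkj hiK hjK h1 h3 x0) hM

end data

/-! ### The shifted grids -/

/-- two cells -/
theorem shift_two (i : ℕ) (p a : ℤ) {z : ℤ} (hz : z ∈ iv i p) :
    ix i (z + a) = ix i (2 ^ i * p + a) ∨ ix i (z + a) = ix i (2 ^ i * p + a) + 1 := by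
  have h2 : (0 : ℤ) < 2 ^ i := by positivity
  rw [PL.iv, mem_Ico] at hz
  unfold PL.ix
  have e1 : (2 ^ i * p + a) / 2 ^ i ≤ (z + a) / 2 ^ i := Int.ediv_le_ediv h2 (by linarith)
  have e2 : (z + a) / 2 ^ i ≤ (2 ^ i * p + a + 2 ^ i) / 2 ^ i := Int.ediv_le_ediv h2 (by linarith)
  rw [Int.add_ediv_of_dvd_right (dvd_refl _), Int.ediv_self h2.ne'] at e2
  omega

variable {κ : Type*} [Fintype κ] {c : ℝ} {K : ℕ} {M1 M3 : ℤ} {C : ℤ → ℤ → κ → ℝ}

/-- **A family on the shifted grid**, cut to the root: factor `4`. -/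
theorem ncap_sft (hc : 0 ≤ c) {i j : ℕ} (hiK : i ≤ K) (hjK : j ≤ K)
    (h : ∀ m3 ∈ iv (K - i) M3, ∀ m1 ∈ iv (K - j) M1,
      NCap (c * (2 ^ i * 2 ^ j)) (iv i m3) (iv j m1) (nrm C)) (a b p q : ℤ) :
    NCap (4 * c * (2 ^ i * 2 ^ j)) (iv i p) (iv j q) (nrm (sft K M3 M1 a b C)) := by
  -- the cells
  set Z : Finset ℤ := ((iv i p).filter fun z => ix K (z + a) = M3).map (addRightEmbedding a) with hZ
  set X : Finset ℤ := ((iv j q).filter fun x => ix K (x + b) = M1).map (addRightEmbedding b) with hX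
  set I : Finset ℤ := {ix i (2 ^ i * p + a), ix i (2 ^ i * p + a) + 1} with hI
  set J : Finset ℤ := {ix j (2 ^ j * q + b), ix j (2 ^ j * q + b) + 1} with hJ
  have memZ : ∀ z', z' ∈ Z ↔ (z' - a ∈ iv i p ∧ ix K z' = M3) := by
    intro z'
    rw [hZ, mem_map]
    constructor
    · rintro ⟨z, hz, rfl⟩
      rw [mem_filter] at hz
      simp only [addRightEmbedding_apply]
      rw [add_sub_cancel_right]
      exact hz
    · rintro ⟨h1, h2⟩
      refine ⟨z' - a, mem_filter.2 ⟨h1, by rw [sub_add_cancel]; exact h2⟩, ?_⟩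
      simp only [addRightEmbedding_apply, sub_add_cancel]
  have memX : ∀ x', x' ∈ X ↔ (x' - b ∈ iv j q ∧ ix K x' = M1) := by
    intro z'
    rw [hX, mem_map]
    constructor
    · rintro ⟨z, hz, rfl⟩
      rw [mem_filter] at hz
      simp only [addRightEmbedding_apply]
      rw [add_sub_cancel_right]
      exact hz
    · rintro ⟨h1, h2⟩
      refine ⟨z' - b, mem_filter.2 ⟨h1, by rw [sub_add_cancel]; exact h2⟩, ?_⟩
      simp only [addRightEmbedding_apply, sub_add_cancel]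
  have mZ : ∀ z' ∈ Z, ix i z' ∈ I := by
    intro z' hz'
    have h1 := shift_two i p a ((memZ z').1 hz').1
    rw [sub_add_cancel] at h1
    rw [hI, mem_insert, mem_singleton]
    exact h1
  have mX : ∀ x' ∈ X, ix j x' ∈ J := by
    intro z' hz'
    have h1 := shift_two j q b ((memX z').1 hz').1
    rw [sub_add_cancel] at h1
    rw [hJ, mem_insert, mem_singleton]
    exact h1
  have hc' : 0 ≤ c * ((2 : ℝ) ^ i * 2 ^ j) := by positivity
  have key := NCap.union (N := nrm C) (c := c * (2 ^ i * 2 ^ j)) (X := Z) (Y := X) (I := I)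
    (J := J) (f := fun r => Z.filter fun z => ix i z = r) (g := fun r => X.filter fun x => ix j x = r)
    (fun G => (sum_fiberwise_of_maps_to mZ G).symm) (fun G => (sum_fiberwise_of_maps_to mX G).symm)
    fun r _ t _ => by
      rcases (Z.filter fun z => ix i z = r).eq_empty_or_nonempty with h0 | ⟨z, hz⟩
      · rw [h0]
        exact ncap_zero hc' fun x hx => absurd hx (notMem_empty x)
      rcases (X.filter fun x => ix j x = t).eq_empty_or_nonempty with h0 | ⟨x, hx⟩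
      · rw [h0]
        exact ncap_zero hc' fun z _ x hx => absurd hx (notMem_empty x)
      rw [mem_filter] at hz hx
      have r1 : r ∈ iv (K - i) M3 := by
        rw [mem_iv, ← hz.2, ix_ix, Nat.add_sub_cancel' hiK]
        exact ((memZ z).1 hz.1).2
      have r2 : t ∈ iv (K - j) M1 := by
        rw [mem_iv, ← hx.2, ix_ix, Nat.add_sub_cancel' hjK]
        exact ((memX x).1 hx.1).2
      exact (h r r1 t r2).sub (fun z' h' => mem_iv.2 (mem_filter.1 h').2)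
        fun x' h' => mem_iv.2 (mem_filter.1 h').2
  have cI : (I.card : ℝ) ≤ 2 := by
    have h1 : I.card ≤ 2 := card_le_two
    exact_mod_cast h1
  have cJ : (J.card : ℝ) ≤ 2 := by
    have h1 : J.card ≤ 2 := card_le_two
    exact_mod_cast h1
  have key2 : NCap (4 * c * (2 ^ i * 2 ^ j)) Z X (nrm C) := by
    refine key.mono ?_
    have h4 : (I.card : ℝ) * J.card ≤ 2 * 2 := by gcongr
    nlinarith
  intro f g
  have h1 := key2 (fun z => f (z - a)) fun x => g (x - b)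
  have e1 : ∀ G : ℤ → ℝ, ∑ z ∈ Z, G z = ∑ z ∈ iv i p, if ix K (z + a) = M3 then G (z + a) else 0 := by
    intro G
    rw [hZ, sum_map, sum_filter]
    rfl
  have e2 : ∀ G : ℤ → ℝ, ∑ x ∈ X, G x = ∑ x ∈ iv j q, if ix K (x + b) = M1 then G (x + b) else 0 := by
    intro G
    rw [hX, sum_map, sum_filter]
    rfl
  have e3 : ∑ z ∈ Z, ∑ x ∈ X, f (z - a) * g (x - b) * nrm C z x =
      ∑ z ∈ iv i p, ∑ x ∈ iv j q, f z * g x * nrm (sft K M3 M1 a b C) z x := by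
    rw [e1]
    refine sum_congr rfl fun z _ => ?_
    by_cases hz : ix K (z + a) = M3
    · rw [if_pos hz, e2]
      refine sum_congr rfl fun x _ => ?_
      by_cases hx : ix K (x + b) = M1
      · rw [if_pos hx, add_sub_cancel_right, add_sub_cancel_right]
        unfold nrm H747.sft
        rw [if_pos ⟨hz, hx⟩]
      · rw [if_neg hx]
        unfold nrm H747.sft
        rw [if_neg fun e => hx e.2, dotProduct_zero, Real.sqrt_zero, mul_zero]
    · rw [if_neg hz]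
      symm
      refine sum_eq_zero fun x _ => ?_
      unfold nrm H747.sft
      rw [if_neg fun e => hz e.1, dotProduct_zero, Real.sqrt_zero, mul_zero]
  rw [e3] at h1
  refine h1.trans ?_
  have e4 : ∑ z ∈ Z, f (z - a) ^ 2 ≤ ∑ z ∈ iv i p, f z ^ 2 := by
    rw [e1]
    refine sum_le_sum fun z _ => ?_
    split_ifs
    · rw [add_sub_cancel_right]
    · exact sq_nonneg _
  have e5 : ∑ x ∈ X, g (x - b) ^ 2 ≤ ∑ x ∈ iv j q, g x ^ 2 := by
    rw [e2]
    refine sum_le_sum fun z _ => ?_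
    split_ifs
    · rw [add_sub_cancel_right]
    · exact sq_nonneg _
  have n1 : 0 ≤ ∑ z ∈ Z, f (z - a) ^ 2 := sum_nonneg fun _ _ => sq_nonneg _
  have n2 : 0 ≤ ∑ x ∈ X, g (x - b) ^ 2 := sum_nonneg fun _ _ => sq_nonneg _
  have n3 : 0 ≤ ∑ z ∈ iv i p, f z ^ 2 := sum_nonneg fun _ _ => sq_nonneg _
  gcongr

/-- **The killed family of `v` on the shifted grids**: every rectangle with sides of scale at
least `k`, time `k`. -/
theorem ncap_shift {ι : Type*} [Fintype ι] {Λ s ez cP : ℝ} {n : ℕ} {F : ℕ → Pt → ℝ}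
    {Q : ℕ → Pt → Prop} {a : ℤ × ℤ → ℝ} {v : ℤ → ℤ → ι → ℝ} {D : ℕ → ℤ → ℤ → Prop}
    (h : CD Λ s ez cP n K F Q a v D M1 M3) {k i j : ℕ} (hki : k ≤ i) (hkj : k ≤ j)
    (hiK : i ≤ K) (hjK : j ≤ K) (x0 h3 h1 p q : ℤ) :
    NCap (4 * capV Λ s ez * (2 ^ i * 2 ^ j)) (iv i p) (iv j q)
      (nrm (sft K M3 M1 h3 h1 (fC v (kD D F) x0 k))) :=
  ncap_sft (capV_nonneg h.ez0) hiK hjK
    (fun _ hm3 _ hm1 => ncap_fC h hki hkj hiK hjK hm1 hm3 x0) h3 h1 p q

end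

end Vale.Agent.P141.H215
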